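import Vale.Agent.Lib.P243T.Pieces

/-!
# The pieces cover the tetrahedron
-/

namespace Vale.Agent.Lib.P243

theorem cover_P_bounds (x y t m : ℝ) (hx : |x| ≤ 1 - t) (hy : |y| ≤ 1 + t)
    (h1 : -(25 / 256) + y ^ 2 / 25 < t) (h2 : t ≤ -(x * (x - y)) / 25)
    (hm0 : 0 ≤ m) (hm1 : m ≤ x - y) (hm2 : x - y ≤ m + 1 / 1000) :
    -(25 / 256) + m ^ 2 / 100 - 44 / 1000000 ≤ t + m / 50 * x + m / 50 * y ∧
      t + m / 50 * x + m / 50 * y ≤ -(m ^ 2 / 50) + 44 / 1000000 := by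
  obtain ⟨hx1, hx2⟩ := abs_le.mp hx
  obtain ⟨hy1, hy2⟩ := abs_le.mp hy
  have t0 : -(25 / 256) < t := by nlinarith [sq_nonneg y]
  have t1 : t ≤ 1 := by linarith
  have ysq : y ^ 2 ≤ 4 := by nlinarith
  have t2 : t ≤ 1 / 25 := by nlinarith [sq_nonneg (2 * x - y)]
  have s1 : x + y ≤ 22 / 10 := by linarith
  have s2 : -(22 / 10) ≤ x + y := by linarith
  constructor
  · nlinarith [mul_nonneg (sub_nonneg.mpr hm1) (by linarith : 0 ≤ 22 / 10 - (x + y)),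
      mul_nonneg (by linarith : 0 ≤ m + 1 / 1000 - (x - y)) (by linarith : 0 ≤ 22 / 10 - (x + y)),
      mul_nonneg (sub_nonneg.mpr hm1) (by linarith : 0 ≤ (x + y) + 22 / 10), sq_nonneg (x + y),
      mul_nonneg hm0 (sub_nonneg.mpr hm1), mul_nonneg (sub_nonneg.mpr hm1) (sub_nonneg.mpr hm1)]
  · nlinarith [mul_nonneg (sub_nonneg.mpr hm1) (by linarith : 0 ≤ 22 / 10 - (x + y)),
      mul_nonneg (by linarith : 0 ≤ m + 1 / 1000 - (x - y)) (by linarith : 0 ≤ (x + y) + 22 / 10),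
      mul_nonneg (sub_nonneg.mpr hm1) (by linarith : 0 ≤ (x + y) + 22 / 10),
      mul_nonneg hm0 (sub_nonneg.mpr hm1), mul_nonneg (sub_nonneg.mpr hm1) (sub_nonneg.mpr hm1)]

theorem cover_P_range (x y t : ℝ) (h1 : -(25 / 256) + y ^ 2 / 25 < t)
    (h2 : t ≤ -(x * (x - y)) / 25) : x - y < 1805 / 1000 := by
  by_contra h
  push Not at h
  nlinarith [sq_nonneg (x + y), mul_self_nonneg (x - y - 1805 / 1000)]

theorem cover_Y_bounds (x y t m : ℝ) (hx : |x| ≤ 1 - t) (hy : |y| ≤ 1 + t)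
    (h1 : -(x * (x - y)) / 25 < t) (h2 : t ≤ x * y / 25)
    (hm0 : 0 ≤ m) (hm1 : m ≤ x) (hm2 : x ≤ m + 1 / 1000) :
    -((m + 1 / 1000) ^ 2 / 25) - 416 / 10000000 ≤ t - m / 25 * y ∧
      t - m / 25 * y ≤ 416 / 10000000 := by
  obtain ⟨hx1, hx2⟩ := abs_le.mp hx
  obtain ⟨hy1, hy2⟩ := abs_le.mp hy
  have hx0 : 0 ≤ x := hm0.trans hm1
  have t1 : t ≤ 1 := by linarith
  have t0 : -1 ≤ t := by linarith
  have t2 : t ≤ 1 / 25 := by
    nlinarith [mul_nonneg hx0 (by linarith : 0 ≤ 1 + t - y),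
      mul_nonneg (by linarith : 0 ≤ 1 - t - x) (by linarith : 0 ≤ 1 + t), sq_nonneg t]
  have y1 : y ≤ 26 / 25 := by linarith
  have y2 : -(26 / 25) ≤ y := by linarith
  constructor
  · nlinarith [mul_nonneg (sub_nonneg.mpr hm1) (by linarith : 0 ≤ y + 26 / 25),
      mul_nonneg (by linarith : 0 ≤ m + 1 / 1000 - x) (by linarith : 0 ≤ x + (m + 1 / 1000))]
  · nlinarith [mul_nonneg (sub_nonneg.mpr hm1) (by linarith : 0 ≤ 26 / 25 - y)]

theorem cover_Y_range (x y t : ℝ) (hx : |x| ≤ 1 - t) (hy : |y| ≤ 1 + t) (hx0 : 0 ≤ x)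
    (h1 : -(x * (x - y)) / 25 < t) : x < 1087 / 1000 := by
  obtain ⟨hx1, hx2⟩ := abs_le.mp hx
  obtain ⟨hy1, hy2⟩ := abs_le.mp hy
  have : x * (x - y) ≤ x * (x + (2 - x)) := by
    apply mul_le_mul_of_nonneg_left _ hx0
    linarith
  nlinarith

theorem cover_A_range (x y t : ℝ) (hx : |x| ≤ 1 - t) (hy : |y| ≤ 1 + t) (hy0 : 0 ≤ y)
    (h1 : t ≤ -(25 / 256) + y ^ 2 / 25) : y ≤ 15 / 16 := by
  have := abs_nonneg x
  rw [abs_of_nonneg hy0] at hy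
  by_contra h
  push Not at h
  nlinarith [mul_pos (sub_pos.mpr h) (by linarith : (0 : ℝ) < 385 / 16 - y)]

/-- a point of the lower part with a sign normalisation lies in a piece -/
theorem cover_A (p : E3) (hp : p ∈ Tet) (h1 : p 2 ≤ -(25 / 256) + (p 1) ^ 2 / 25)
    (h0 : 0 ≤ p 1) : ∃ k, pieceMap k p ∈ pieceSet k := by
  refine ⟨Sum.inl (), ?_⟩
  have hy := cover_A_range _ _ _ hp.1 hp.2 h0 h1
  have h2 := hp.2
  rw [abs_of_nonneg h0] at h2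
  simp only [pieceMap, pieceSet, sh_apply, region_mem]
  refine ⟨⟨by linarith, by linarith⟩, ?_, ?_⟩ <;> linarith

theorem cover_P (p : E3) (hp : p ∈ Tet) (h1 : -(25 / 256) + (p 1) ^ 2 / 25 < p 2)
    (h2 : p 2 ≤ -(p 0 * (p 0 - p 1)) / 25)
    (h0 : 0 ≤ p 0 - p 1) : ∃ k, pieceMap k p ∈ pieceSet k := by
  have hr := cover_P_range _ _ _ h1 h2
  have hf1 : ((⌊(p 0 - p 1) * 1000⌋₊ : ℕ) : ℝ) ≤ (p 0 - p 1) * 1000 :=
    Nat.floor_le (by linarith)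
  have hf2 : (p 0 - p 1) * 1000 < ((⌊(p 0 - p 1) * 1000⌋₊ : ℕ) : ℝ) + 1 :=
    Nat.lt_floor_add_one _
  have hj : ⌊(p 0 - p 1) * 1000⌋₊ < 1805 := by
    have : ((⌊(p 0 - p 1) * 1000⌋₊ : ℕ) : ℝ) < 1805 := by linarith
    exact_mod_cast this
  refine ⟨Sum.inr (Sum.inl ⟨_, hj⟩), ?_⟩
  have hb := cover_P_bounds (p 0) (p 1) (p 2) ((⌊(p 0 - p 1) * 1000⌋₊ : ℕ) / 1000) hp.1 hp.2 h1 h2
    (by positivity) (by linarith) (by linarith)
  simp only [pieceMap, pieceSet, sh_apply, region_mem]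
  refine ⟨⟨by linarith, by linarith⟩, ?_, ?_⟩
  · linarith [hb.1]
  · linarith [hb.2]

theorem cover_Y (p : E3) (hp : p ∈ Tet) (h1 : -(p 0 * (p 0 - p 1)) / 25 < p 2)
    (h2 : p 2 ≤ p 0 * p 1 / 25)
    (h0 : 0 ≤ p 0) : ∃ k, pieceMap k p ∈ pieceSet k := by
  have hr := cover_Y_range _ _ _ hp.1 hp.2 h0 h1
  have hf1 : ((⌊p 0 * 1000⌋₊ : ℕ) : ℝ) ≤ p 0 * 1000 := Nat.floor_le (by linarith)
  have hf2 : p 0 * 1000 < ((⌊p 0 * 1000⌋₊ : ℕ) : ℝ) + 1 := Nat.lt_floor_add_one _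
  have hj : ⌊p 0 * 1000⌋₊ < 1087 := by
    have : ((⌊p 0 * 1000⌋₊ : ℕ) : ℝ) < 1087 := by linarith
    exact_mod_cast this
  refine ⟨Sum.inr (Sum.inr ⟨_, hj⟩), ?_⟩
  have hb := cover_Y_bounds (p 0) (p 1) (p 2) ((⌊p 0 * 1000⌋₊ : ℕ) / 1000) hp.1 hp.2 h1 h2
    (by positivity) (by linarith) (by linarith)
  simp only [pieceMap, pieceSet, sh_apply, region_mem]
  refine ⟨⟨by linarith, by linarith⟩, ?_, ?_⟩
  · have e : ((⌊p 0 * 1000⌋₊ : ℕ) + 1 : ℝ) / 1000 = (⌊p 0 * 1000⌋₊ : ℕ) / 1000 + 1 / 1000 := by ring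
    rw [e]
    linarith [hb.1]
  · linarith [hb.2]

theorem cover_lower (p : E3) (hp : p ∈ Tet) (h : p 2 ≤ p 0 * p 1 / 25) :
    (∃ k, pieceMap k p ∈ pieceSet k) ∨ (∃ k, pieceMap k (rot (rot p)) ∈ pieceSet k) := by
  have hp' : rot (rot p) ∈ Tet := rot_mem _ (rot_mem _ hp)
  have e0 : rot (rot p) 0 = - p 0 := by rw [rot_zero, rot_one]
  have e1 : rot (rot p) 1 = - p 1 := by rw [rot_one, rot_zero]
  have e2 : rot (rot p) 2 = p 2 := by rw [rot_two, rot_two, neg_neg]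
  by_cases hA : p 2 ≤ -(25 / 256) + (p 1) ^ 2 / 25
  · by_cases h0 : 0 ≤ p 1
    · exact Or.inl (cover_A p hp hA h0)
    · refine Or.inr (cover_A _ hp' ?_ ?_)
      · rw [e1, e2, neg_sq]; exact hA
      · rw [e1]; push Not at h0; linarith
  · push Not at hA
    by_cases hP : p 2 ≤ -(p 0 * (p 0 - p 1)) / 25
    · by_cases h0 : 0 ≤ p 0 - p 1
      · exact Or.inl (cover_P p hp hA hP h0)
      · refine Or.inr (cover_P _ hp' ?_ ?_ ?_)
        · rw [e1, e2, neg_sq]; exact hA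
        · rw [e0, e1, e2]; nlinarith
        · rw [e0, e1]; push Not at h0; linarith
    · push Not at hP
      by_cases h0 : 0 ≤ p 0
      · exact Or.inl (cover_Y p hp hP h h0)
      · refine Or.inr (cover_Y _ hp' ?_ ?_ ?_)
        · rw [e0, e1, e2]; nlinarith
        · rw [e0, e1, e2]; nlinarith
        · rw [e0]; push Not at h0; linarith

/-- the i-th iterate of the rotation -/
noncomputable def rotIter : Fin 4 → (E3 →ₗ[ℝ] E3)
  | 0 => LinearMap.id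
  | 1 => rot
  | 2 => rot ∘ₗ rot
  | 3 => rot ∘ₗ rot ∘ₗ rot

theorem cover_all (p : E3) (hp : p ∈ Tet) :
    ∃ i : Fin 4, ∃ k : Idx, (pieceMap k ∘ₗ rotIter i) p ∈ pieceSet k := by
  by_cases h : p 2 ≤ p 0 * p 1 / 25
  · rcases cover_lower p hp h with ⟨k, hk⟩ | ⟨k, hk⟩
    · exact ⟨0, k, hk⟩
    · exact ⟨2, k, hk⟩
  · push Not at h
    have hp1 : rot p ∈ Tet := rot_mem _ hp
    have h' : rot p 2 ≤ rot p 0 * rot p 1 / 25 := by
      rw [rot_zero, rot_one, rot_two]; nlinarith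
    rcases cover_lower (rot p) hp1 h' with ⟨k, hk⟩ | ⟨k, hk⟩
    · exact ⟨1, k, hk⟩
    · exact ⟨3, k, hk⟩

theorem rotIter_good (k : Idx) (i : Fin 4) :
    Good (pieceMap k ∘ₗ rotIter i) (pieceA k) := by
  have h := pieceMap_good k
  fin_cases i
  · exact h
  · exact good_rot _ _ h
  · exact good_rot _ _ (good_rot _ _ h)
  · exact good_rot _ _ (good_rot _ _ (good_rot _ _ h))

end Vale.Agent.Lib.P243
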