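import Mathlib

/-!
# Coverings by cylinders: definitions

The definitions are stated in a real inner product space `E`; they are used for Euclidean
three-space. Areas are computed with the two-dimensional Euclidean Hausdorff measure of Mathlib,
which on each plane of Euclidean space is the Lebesgue area.
-/

namespace Vale.Agent.Lib.P243

open MeasureTheory
open scoped ENNReal

section

variable {E : Type*} [NormedAddCommGroup E] [InnerProductSpace ℝ E] [MeasurableSpace E]
  [BorelSpace E]

/-- Planar area (of subsets of planes of `E`): the two-dimensional Euclidean Hausdorff measure. -/
noncomputable def area (A : Set E) : ℝ := (Measure.euclideanHausdorffMeasure 2 A).toReal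

/-- The orthogonal projection of the set `K` along the unit vector `u`, that is, onto the
hyperplane orthogonal to `u`. -/
def shadow (u : E) (K : Set E) : Set E := (fun x => x - inner ℝ u x • u) '' K

variable (E) in
/-- A cylinder: a unit vector `axis` and a measurable set `base` of finite area which lies in the
hyperplane through the origin orthogonal to `axis`. -/
structure Cylinder where
  /-- the direction of the axis -/
  axis : E
  norm_axis : ‖axis‖ = 1
  /-- the base -/
  base : Set E
  base_orthogonal : ∀ b ∈ base, inner ℝ axis b = 0
  measurableSet_base : MeasurableSet base
  area_base_ne_top : Measure.euclideanHausdorffMeasure 2 base ≠ ∞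

/-- The cylinder as a set of points: `base + ℝ axis`. -/
def Cylinder.carrier (C : Cylinder E) : Set E :=
  {x | ∃ b ∈ C.base, ∃ r : ℝ, x = b + r • C.axis}

/-- The area of the base of the cylinder divided by the area of the orthogonal projection of `K`
along the axis of the cylinder. -/
noncomputable def Cylinder.relArea (C : Cylinder E) (K : Set E) : ℝ :=
  area C.base / area (shadow C.axis K)

/-- `K` has a finite covering by cylinders whose directionwise relative area is less than `r`. -/
def HasCovering (K : Set E) (r : ℝ) : Prop :=
  ∃ (m : ℕ) (C : Fin m → Cylinder E), K ⊆ ⋃ i, (C i).carrier ∧ ∑ i, (C i).relArea K < r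

/-- A convex body: a compact convex set with nonempty interior. -/
def IsConvexBody (K : Set E) : Prop := Convex ℝ K ∧ IsCompact K ∧ (interior K).Nonempty

end

/-- Euclidean three-space. -/
abbrev E3 := EuclideanSpace ℝ (Fin 3)

end Vale.Agent.Lib.P243
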