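import Vale.Agent.Lib.P243T.Cover

/-!
# The final estimate
-/

namespace Vale.Agent.Lib.P243

open MeasureTheory
open scoped ENNReal

theorem final_sum_sq (n : ℕ) :
    ∑ j ∈ Finset.range n, (j : ℝ) ^ 2 = ((n : ℝ) - 1) * n * (2 * n - 1) / 6 := by
  induction n with
  | zero => simp
  | succ n ih => rw [Finset.sum_range_succ, ih]; push_cast; ring

theorem final_sum_sq_succ (n : ℕ) :
    ∑ j ∈ Finset.range n, ((j : ℝ) + 1) ^ 2 = (n : ℝ) * (n + 1) * (2 * n + 1) / 6 := by
  induction n with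
  | zero => simp
  | succ n ih => rw [Finset.sum_range_succ, ih]; push_cast; ring

theorem final_sum_P : ∑ j : Fin 1805, (1 / 1000 : ℝ) *
      (25 / 256 - 3 * ((j : ℝ) / 1000) ^ 2 / 100 + 88 / 1000000) / 8 =
      (1805 * (1 / 1000) * (25 / 256 + 88 / 1000000) -
        (1 / 1000) * (3 / 100000000) * (1804 * 1805 * 3609 / 6)) / 8 := by
  rw [Fin.sum_univ_eq_sum_range (fun j : ℕ => (1 / 1000 : ℝ) *
      (25 / 256 - 3 * ((j : ℝ) / 1000) ^ 2 / 100 + 88 / 1000000) / 8) 1805]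
  have : ∀ j : ℕ, (1 / 1000 : ℝ) *
      (25 / 256 - 3 * ((j : ℝ) / 1000) ^ 2 / 100 + 88 / 1000000) / 8 =
      (1 / 1000) * (25 / 256 + 88 / 1000000) / 8 -
        (1 / 1000) * (3 / 100000000) / 8 * (j : ℝ) ^ 2 := by
    intro j; ring
  simp_rw [this]
  rw [Finset.sum_sub_distrib, ← Finset.mul_sum, final_sum_sq, Finset.sum_const,
    Finset.card_range, nsmul_eq_mul]
  norm_num

theorem final_sum_Y : ∑ j : Fin 1087, (1 / 1000 : ℝ) *
      ((((j : ℝ) + 1) / 1000) ^ 2 / 25 + 832 / 10000000) / 4 =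
      (1087 * (1 / 1000) * (832 / 10000000) +
        (1 / 1000) * (1 / 25000000) * (1087 * 1088 * 2175 / 6)) / 4 := by
  rw [Fin.sum_univ_eq_sum_range (fun j : ℕ => (1 / 1000 : ℝ) *
      ((((j : ℝ) + 1) / 1000) ^ 2 / 25 + 832 / 10000000) / 4) 1087]
  have : ∀ j : ℕ, (1 / 1000 : ℝ) *
      ((((j : ℝ) + 1) / 1000) ^ 2 / 25 + 832 / 10000000) / 4 =
      (1 / 1000) * (832 / 10000000) / 4 +
        (1 / 1000) * (1 / 25000000) / 4 * ((j : ℝ) + 1) ^ 2 := by
    intro j; ring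
  simp_rw [this]
  rw [Finset.sum_add_distrib, ← Finset.mul_sum, final_sum_sq_succ, Finset.sum_const,
    Finset.card_range, nsmul_eq_mul]
  norm_num

theorem final_sum : ∑ _i : Fin 4, ∑ k : Idx, pieceV k / pieceA k < 494 / 1000 := by
  rw [Finset.sum_const, Finset.card_univ, Fintype.card_fin, nsmul_eq_mul, Fintype.sum_sum_type,
    Fintype.sum_sum_type]
  simp only [pieceV, pieceA]
  rw [final_sum_P, final_sum_Y]
  simp
  norm_num

theorem final_convex : Convex ℝ Tet := by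
  intro p hp q hq a b ha hb hab
  obtain ⟨h1, h2⟩ := hp
  obtain ⟨h3, h4⟩ := hq
  refine ⟨?_, ?_⟩
  · have e0 : (a • p + b • q) 0 = a * p 0 + b * q 0 := by simp
    have e2 : (a • p + b • q) 2 = a * p 2 + b * q 2 := by simp
    rw [e0, e2]
    calc |a * p 0 + b * q 0| ≤ |a * p 0| + |b * q 0| := abs_add_le _ _
      _ = a * |p 0| + b * |q 0| := by rw [abs_mul, abs_mul, abs_of_nonneg ha, abs_of_nonneg hb]
      _ ≤ a * (1 - p 2) + b * (1 - q 2) := by gcongr
      _ = 1 - (a * p 2 + b * q 2) := by linear_combination hab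
  · have e0 : (a • p + b • q) 1 = a * p 1 + b * q 1 := by simp
    have e2 : (a • p + b • q) 2 = a * p 2 + b * q 2 := by simp
    rw [e0, e2]
    calc |a * p 1 + b * q 1| ≤ |a * p 1| + |b * q 1| := abs_add_le _ _
      _ = a * |p 1| + b * |q 1| := by rw [abs_mul, abs_mul, abs_of_nonneg ha, abs_of_nonneg hb]
      _ ≤ a * (1 + p 2) + b * (1 + q 2) := by gcongr
      _ = 1 + (a * p 2 + b * q 2) := by linear_combination hab

theorem final_hull : Tet = convexHull ℝ
    {(!₂[2, 0, -1] : E3), !₂[-2, 0, -1], !₂[0, 2, 1], !₂[0, -2, 1]} := by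
  apply Set.Subset.antisymm
  · intro p hp
    obtain ⟨h1, h2⟩ := hp
    obtain ⟨h1a, h1b⟩ := abs_le.mp h1
    obtain ⟨h2a, h2b⟩ := abs_le.mp h2
    have hc : Convex ℝ (convexHull ℝ
      {(!₂[2, 0, -1] : E3), !₂[-2, 0, -1], !₂[0, 2, 1], !₂[0, -2, 1]}) := convex_convexHull _ _
    have m1 : (!₂[2, 0, -1] : E3) ∈ convexHull ℝ
      {(!₂[2, 0, -1] : E3), !₂[-2, 0, -1], !₂[0, 2, 1], !₂[0, -2, 1]} :=
      subset_convexHull _ _ (by simp)
    have m2 : (!₂[-2, 0, -1] : E3) ∈ convexHull ℝ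
      {(!₂[2, 0, -1] : E3), !₂[-2, 0, -1], !₂[0, 2, 1], !₂[0, -2, 1]} :=
      subset_convexHull _ _ (by simp)
    have m3 : (!₂[0, 2, 1] : E3) ∈ convexHull ℝ
      {(!₂[2, 0, -1] : E3), !₂[-2, 0, -1], !₂[0, 2, 1], !₂[0, -2, 1]} :=
      subset_convexHull _ _ (by simp)
    have m4 : (!₂[0, -2, 1] : E3) ∈ convexHull ℝ
      {(!₂[2, 0, -1] : E3), !₂[-2, 0, -1], !₂[0, 2, 1], !₂[0, -2, 1]} :=
      subset_convexHull _ _ (by simp)
    let v : Fin 4 → E3 := ![!₂[2, 0, -1], !₂[-2, 0, -1], !₂[0, 2, 1], !₂[0, -2, 1]]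
    let c : Fin 4 → ℝ := ![(1 - p 2 + p 0) / 4, (1 - p 2 - p 0) / 4, (1 + p 2 + p 1) / 4,
      (1 + p 2 - p 1) / 4]
    have hsum : p = ∑ i, c i • v i := by
      ext i
      rw [Fin.sum_univ_four]
      fin_cases i
      · simp [c, v]; ring
      · simp [c, v]; ring
      · simp [c, v]; ring
    rw [hsum]
    refine hc.sum_mem ?_ ?_ ?_
    · intro i _
      fin_cases i
      · simp [c]; linarith
      · simp [c]; linarith
      · simp [c]; linarith
      · simp [c]; linarith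
    · rw [Fin.sum_univ_four]
      simp [c]; ring
    · intro i _
      fin_cases i
      · exact m1
      · exact m2
      · exact m3
      · exact m4
  · apply convexHull_min _ final_convex
    intro p hp
    rcases hp with rfl | rfl | rfl | rfl
    · constructor <;> simp <;> norm_num
    · constructor <;> simp <;> norm_num
    · constructor <;> simp <;> norm_num
    · constructor <;> simp <;> norm_num

theorem final_compact : IsCompact Tet := by
  rw [final_hull]
  exact Set.Finite.isCompact_convexHull ℝ (Set.toFinite _)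

theorem final_interior : (interior Tet).Nonempty := by
  refine ⟨0, ?_⟩
  rw [mem_interior]
  refine ⟨{p : E3 | |p 0| < 1 - p 2 ∧ |p 1| < 1 + p 2}, ?_, ?_, ?_⟩
  · intro p hp
    exact ⟨hp.1.le, hp.2.le⟩
  · refine IsOpen.and ?_ ?_
    · exact isOpen_lt (by fun_prop) (by fun_prop)
    · exact isOpen_lt (by fun_prop) (by fun_prop)
  · constructor <;> simp

theorem final_cover : HasCovering Tet (494 / 1000) := by
  have key : ∀ q : Fin 4 × Idx, ∃ C : Cylinder E3,
      C.carrier = (pieceMap q.2 ∘ₗ rotIter q.1) ⁻¹' (pieceSet q.2) ∧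
        C.relArea Tet ≤ pieceV q.2 / pieceA q.2 := by
    rintro ⟨i, k⟩
    obtain ⟨w, hw, hφw, hker, hsurj, hvol⟩ := rotIter_good k i
    have ha : 0 < pieceA k := by
      rcases k with _ | j | j <;> simp [pieceA]
    have hv := pieceSet_volume k
    obtain ⟨C, hC1, hC2⟩ := exists_cylinder (pieceMap k ∘ₗ rotIter i) w hw hφw hker hsurj
      (pieceSet k) (pieceSet_closed k).measurableSet (by rw [hv]; exact ENNReal.ofReal_ne_top)
      Tet final_compact (pieceA k) ha hvol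
    refine ⟨C, hC1, ?_⟩
    rw [hv, ENNReal.toReal_ofReal (pieceV_nonneg k)] at hC2
    exact hC2
  choose D hD1 hD2 using key
  let e := Fintype.equivFin (Fin 4 × Idx)
  refine ⟨Fintype.card (Fin 4 × Idx), fun i => D (e.symm i), ?_, ?_⟩
  · intro p hp
    obtain ⟨i, k, hik⟩ := cover_all p hp
    refine Set.mem_iUnion.mpr ⟨e (i, k), ?_⟩
    change p ∈ (D (e.symm (e (i, k)))).carrier
    rw [e.symm_apply_apply, hD1]
    exact hik
  · have h1 : ∑ i, (D (e.symm i)).relArea Tet = ∑ q, (D q).relArea Tet :=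
      Equiv.sum_comp e.symm (fun q => (D q).relArea Tet)
    rw [h1]
    calc ∑ q, (D q).relArea Tet ≤ ∑ q : Fin 4 × Idx, pieceV q.2 / pieceA q.2 :=
          Finset.sum_le_sum (fun q _ => hD2 q)
      _ = ∑ _i : Fin 4, ∑ k : Idx, pieceV k / pieceA k := by
          rw [Fintype.sum_prod_type]
      _ < 494 / 1000 := final_sum

end Vale.Agent.Lib.P243
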