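import Mathlib

/-!
# Area of the region between two graphs
-/

namespace Vale.Agent.Lib.P243

open MeasureTheory
open scoped ENNReal

/-- closed region between two graphs over an interval -/
def region (a b : ℝ) (f g : ℝ → ℝ) : Set (ℝ × ℝ) :=
  {p | (a ≤ p.1 ∧ p.1 ≤ b) ∧ f p.1 ≤ p.2 ∧ p.2 ≤ g p.1}

theorem region_mem (a b : ℝ) (f g : ℝ → ℝ) (y t : ℝ) :
    (y, t) ∈ region a b f g ↔ (a ≤ y ∧ y ≤ b) ∧ f y ≤ t ∧ t ≤ g y := Iff.rfl

theorem region_isClosed (a b : ℝ) (f g : ℝ → ℝ) (hf : Continuous f) (hg : Continuous g) :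
    IsClosed (region a b f g) := by
  unfold region
  refine IsClosed.and (IsClosed.and ?_ ?_) (IsClosed.and ?_ ?_)
  · exact isClosed_le continuous_const continuous_fst
  · exact isClosed_le continuous_fst continuous_const
  · exact isClosed_le (hf.comp continuous_fst) continuous_snd
  · exact isClosed_le continuous_snd (hg.comp continuous_fst)

theorem region_volume (a b : ℝ) (hab : a ≤ b) (f g : ℝ → ℝ) (hf : Continuous f)
    (hg : Continuous g) (hfg : ∀ y, a ≤ y → y ≤ b → f y ≤ g y) :
    volume (region a b f g) = ENNReal.ofReal (∫ y in a..b, (g y - f y)) := by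
  have hm : MeasurableSet (region a b f g) := (region_isClosed a b f g hf hg).measurableSet
  rw [Measure.volume_eq_prod, Measure.prod_apply hm]
  have h1 : ∀ y : ℝ, volume (Prod.mk y ⁻¹' (region a b f g)) =
      (Set.Icc a b).indicator (fun y => ENNReal.ofReal (g y - f y)) y := by
    intro y
    by_cases hy : y ∈ Set.Icc a b
    · rw [Set.indicator_of_mem hy]
      have : Prod.mk y ⁻¹' (region a b f g) = Set.Icc (f y) (g y) := by
        ext t
        simp only [Set.mem_preimage, region_mem, Set.mem_Icc]
        exact ⟨fun h => h.2, fun h => ⟨hy, h⟩⟩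
      rw [this, Real.volume_Icc]
    · rw [Set.indicator_of_notMem hy]
      have : Prod.mk y ⁻¹' (region a b f g) = ∅ := by
        ext t
        simp only [Set.mem_preimage, region_mem, Set.mem_empty_iff_false, iff_false]
        exact fun h => hy h.1
      rw [this, measure_empty]
  simp_rw [h1]
  rw [lintegral_indicator measurableSet_Icc, ← ofReal_integral_eq_lintegral_ofReal]
  · rw [intervalIntegral.integral_of_le hab, integral_Icc_eq_integral_Ioc]
  · exact ((hg.sub hf).integrableOn_Icc)
  · refine (ae_restrict_mem measurableSet_Icc).mono ?_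
    intro y hy
    exact sub_nonneg.mpr (hfg y hy.1 hy.2)

end Vale.Agent.Lib.P243
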