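import Vale.Agent.Lib.P243T.Ratio
import Vale.Agent.Lib.P243T.Region

/-!
# The tetrahedron, the shadow maps and the fourfold rotation
-/

namespace Vale.Agent.Lib.P243

open MeasureTheory
open scoped ENNReal

/-- the tetrahedron with vertices (2,0,-1), (-2,0,-1), (0,2,1), (0,-2,1), by inequalities -/
def Tet : Set E3 := {p | |p 0| ≤ 1 - p 2 ∧ |p 1| ≤ 1 + p 2}

/-- the map `(x,y,t) ↦ (α x + β y, t + γ x + δ y)` -/
noncomputable def sh (α β γ δ : ℝ) : E3 →ₗ[ℝ] ℝ × ℝ where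
  toFun p := (α * p 0 + β * p 1, p 2 + γ * p 0 + δ * p 1)
  map_add' p q := by
    ext <;> simp <;> ring
  map_smul' r p := by
    ext <;> simp <;> ring

theorem sh_apply (α β γ δ : ℝ) (p : E3) :
    sh α β γ δ p = (α * p 0 + β * p 1, p 2 + γ * p 0 + δ * p 1) := rfl

/-- the map `(x,y,t) ↦ (y,-x,-t)` -/
noncomputable def rot : E3 →ₗ[ℝ] E3 where
  toFun p := !₂[p 1, - p 0, - p 2]
  map_add' p q := by
    ext i; fin_cases i <;> simp <;> ring
  map_smul' r p := by
    ext i; fin_cases i <;> simp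

theorem rot_zero (p : E3) : rot p 0 = p 1 := rfl
theorem rot_one (p : E3) : rot p 1 = - p 0 := rfl
theorem rot_two (p : E3) : rot p 2 = - p 2 := rfl

theorem rot_four (p : E3) : rot (rot (rot (rot p))) = p := by
  ext i
  fin_cases i <;> simp [rot_zero, rot_one, rot_two]

/-- A linear map onto the plane with one-dimensional kernel whose image of the tetrahedron has
area at least `a`. -/
def Good (φ : E3 →ₗ[ℝ] ℝ × ℝ) (a : ℝ) : Prop :=
  ∃ w : E3, w ≠ 0 ∧ φ w = 0 ∧ (∀ x, φ x = 0 → x ∈ Submodule.span ℝ {w}) ∧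
    Function.Surjective φ ∧ ENNReal.ofReal a ≤ volume (φ '' Tet)

theorem rot_mem (p : E3) (hp : p ∈ Tet) : rot p ∈ Tet := by
  obtain ⟨h1, h2⟩ := hp
  refine ⟨?_, ?_⟩
  · rw [rot_zero, rot_two]; linarith
  · rw [rot_one, rot_two, abs_neg]; linarith

theorem good_rot (φ : E3 →ₗ[ℝ] ℝ × ℝ) (a : ℝ) (h : Good φ a) : Good (φ ∘ₗ rot) a := by
  obtain ⟨w, hw, hφw, hker, hsurj, hvol⟩ := h
  refine ⟨rot (rot (rot w)), ?_, ?_, ?_, ?_, ?_⟩
  · intro h0
    apply hw
    have := congrArg rot h0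
    rw [rot_four, map_zero] at this
    exact this
  · rw [LinearMap.comp_apply, rot_four]; exact hφw
  · intro x hx
    obtain ⟨r, hr⟩ := Submodule.mem_span_singleton.mp (hker _ hx)
    refine Submodule.mem_span_singleton.mpr ⟨r, ?_⟩
    have := congrArg (fun z => rot (rot (rot z))) hr
    simp only [map_smul] at this
    rw [this]
    exact rot_four x
  · intro y
    obtain ⟨x, hx⟩ := hsurj y
    exact ⟨rot (rot (rot x)), by rw [LinearMap.comp_apply, rot_four, hx]⟩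
  · refine hvol.trans (measure_mono ?_)
    rintro _ ⟨x, hx, rfl⟩
    refine ⟨rot (rot (rot x)), rot_mem _ (rot_mem _ (rot_mem _ hx)), ?_⟩
    rw [LinearMap.comp_apply, rot_four]

theorem sh_good (α β γ δ a : ℝ) (h0 : 0 < α ^ 2 + β ^ 2)
    (hvol : ENNReal.ofReal a ≤ volume (sh α β γ δ '' Tet)) : Good (sh α β γ δ) a := by
  refine ⟨!₂[β, -α, δ * α - γ * β], ?_, ?_, ?_, ?_, hvol⟩
  · intro h
    have h1 : (!₂[β, -α, δ * α - γ * β] : E3) 0 = 0 := by rw [h]; rfl
    have h2 : (!₂[β, -α, δ * α - γ * β] : E3) 1 = 0 := by rw [h]; rfl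
    simp at h1 h2
    rw [h1, h2] at h0
    norm_num at h0
  · rw [sh_apply]
    ext <;> simp <;> ring
  · intro x hx
    rw [sh_apply] at hx
    have e1 : α * x 0 + β * x 1 = 0 := congrArg Prod.fst hx
    have e2 : x 2 + γ * x 0 + δ * x 1 = 0 := congrArg Prod.snd hx
    refine Submodule.mem_span_singleton.mpr ⟨(β * x 0 - α * x 1) / (α ^ 2 + β ^ 2), ?_⟩
    have k0 : (β * x 0 - α * x 1) / (α ^ 2 + β ^ 2) * β = x 0 := by
      rw [div_mul_eq_mul_div, div_eq_iff h0.ne']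
      linear_combination (-α) * e1
    have k1 : (β * x 0 - α * x 1) / (α ^ 2 + β ^ 2) * (-α) = x 1 := by
      rw [div_mul_eq_mul_div, div_eq_iff h0.ne']
      linear_combination (-β) * e1
    have k2 : (β * x 0 - α * x 1) / (α ^ 2 + β ^ 2) * (δ * α - γ * β) = x 2 := by
      have : (β * x 0 - α * x 1) / (α ^ 2 + β ^ 2) * (δ * α - γ * β) =
        - δ * ((β * x 0 - α * x 1) / (α ^ 2 + β ^ 2) * (-α)) -
          γ * ((β * x 0 - α * x 1) / (α ^ 2 + β ^ 2) * β) := by ring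
      rw [this, k0, k1]
      linear_combination (-1) * e2
    ext i
    fin_cases i
    · simpa using k0
    · simpa using k1
    · simpa using k2
  · rintro ⟨r, s⟩
    refine ⟨!₂[r * α / (α ^ 2 + β ^ 2), r * β / (α ^ 2 + β ^ 2),
      s - γ * (r * α / (α ^ 2 + β ^ 2)) - δ * (r * β / (α ^ 2 + β ^ 2))], ?_⟩
    rw [sh_apply]
    ext
    · simp
      field_simp
    · simp
      ring

end Vale.Agent.Lib.P243
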