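import Vale.Agent.Lib.P243T.Shadow

/-!
# The pieces of the covering
-/

namespace Vale.Agent.Lib.P243

open MeasureTheory
open scoped ENNReal

/-- index set of the pieces -/
abbrev Idx := Unit ⊕ (Fin 1805 ⊕ Fin 1087)

/-- the shadow map of a piece -/
noncomputable def pieceMap : Idx → (E3 →ₗ[ℝ] ℝ × ℝ)
  | Sum.inl _ => sh 0 1 0 0
  | Sum.inr (Sum.inl j) => sh 1 (-1) ((j : ℝ) / 50000) ((j : ℝ) / 50000)
  | Sum.inr (Sum.inr j) => sh 1 0 0 (-((j : ℝ) / 25000))

/-- the plane set of a piece -/
def pieceSet : Idx → Set (ℝ × ℝ)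
  | Sum.inl _ => region 0 (15 / 16) (fun y => y - 1) (fun y => -(25 / 256) + y ^ 2 / 25)
  | Sum.inr (Sum.inl j) => region ((j : ℝ) / 1000) (((j : ℝ) + 1) / 1000)
      (fun _ => -(25 / 256) + ((j : ℝ) / 1000) ^ 2 / 100 - 44 / 1000000)
      (fun _ => -(((j : ℝ) / 1000) ^ 2 / 50) + 44 / 1000000)
  | Sum.inr (Sum.inr j) => region ((j : ℝ) / 1000) (((j : ℝ) + 1) / 1000)
      (fun _ => -((((j : ℝ) + 1) / 1000) ^ 2 / 25) - 416 / 10000000)
      (fun _ => 416 / 10000000)

/-- the lower bound for the area of the shadow of the tetrahedron -/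
def pieceA : Idx → ℝ
  | Sum.inl _ => 4
  | Sum.inr (Sum.inl _) => 8
  | Sum.inr (Sum.inr _) => 4

/-- the area of the plane set of a piece -/
noncomputable def pieceV : Idx → ℝ
  | Sum.inl _ => 855 / 2048
  | Sum.inr (Sum.inl j) => (1 / 1000) *
      (25 / 256 - 3 * ((j : ℝ) / 1000) ^ 2 / 100 + 88 / 1000000)
  | Sum.inr (Sum.inr j) => (1 / 1000) * ((((j : ℝ) + 1) / 1000) ^ 2 / 25 + 832 / 10000000)

theorem pieceMap_good (k : Idx) : Good (pieceMap k) (pieceA k) := by
  rcases k with _ | j | j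
  · exact sh_good _ _ _ _ _ (by norm_num) shadow_A
  · refine sh_good _ _ _ _ _ (by norm_num) (shadow_P _ (by positivity) ?_)
    have : ((j : ℕ) : ℝ) < 1805 := by exact_mod_cast j.2
    linarith
  · exact sh_good _ _ _ _ _ (by norm_num) (shadow_Y _)

theorem pieceSet_closed (k : Idx) : IsClosed (pieceSet k) := by
  rcases k with _ | j | j <;> simp only [pieceSet] <;>
    refine region_isClosed _ _ _ _ ?_ ?_ <;> fun_prop

theorem rect_volume (a b c d : ℝ) (hab : a ≤ b) (hcd : c ≤ d) :
    volume (region a b (fun _ => c) (fun _ => d)) = ENNReal.ofReal ((b - a) * (d - c)) := by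
  rw [region_volume a b hab _ _ continuous_const continuous_const (fun _ _ _ => hcd)]
  rw [intervalIntegral.integral_const, smul_eq_mul]

theorem piece_zero_volume :
    volume (region 0 (15 / 16) (fun y => y - 1) (fun y => -(25 / 256) + y ^ 2 / 25)) =
      ENNReal.ofReal ((231 / 256) * (15 / 16) - (15 / 16) ^ 2 / 2 + (15 / 16) ^ 3 / 75) := by
  rw [region_volume 0 (15 / 16) (by norm_num) _ _ (by fun_prop) (by fun_prop)]
  · congr 1
    have : (fun y : ℝ => -(25 / 256) + y ^ 2 / 25 - (y - 1)) =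
        fun y : ℝ => (231 / 256 - y) + (1 / 25) * y ^ 2 := by
      ext y; ring
    have g1 : IntervalIntegrable (fun y : ℝ => 231 / 256 - y) volume 0 (15 / 16) :=
      Continuous.intervalIntegrable (by fun_prop) _ _
    have g2 : IntervalIntegrable (fun y : ℝ => (1 / 25) * y ^ 2) volume 0 (15 / 16) :=
      Continuous.intervalIntegrable (by fun_prop) _ _
    have g3 : IntervalIntegrable (fun _ : ℝ => (231 / 256 : ℝ)) volume 0 (15 / 16) := by simp
    have g4 : IntervalIntegrable (fun y : ℝ => y) volume 0 (15 / 16) :=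
      Continuous.intervalIntegrable (by fun_prop) _ _
    rw [this, intervalIntegral.integral_add g1 g2, intervalIntegral.integral_sub g3 g4,
      intervalIntegral.integral_const_mul, integral_pow]
    simp only [intervalIntegral.integral_const, integral_id, smul_eq_mul]
    norm_num
  · intro y h1 h2
    nlinarith [mul_nonneg (sub_nonneg.mpr h2) (by linarith : (0 : ℝ) ≤ 385 / 16 - y)]

theorem pieceSet_volume (k : Idx) : volume (pieceSet k) = ENNReal.ofReal (pieceV k) := by
  rcases k with _ | j | j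
  · change volume (region 0 (15 / 16) (fun y => y - 1) (fun y => -(25 / 256) + y ^ 2 / 25)) = _
    rw [piece_zero_volume]
    congr 1
    simp only [pieceV]
    norm_num
  · have hj : ((j : ℕ) : ℝ) ≤ 1804 := by exact_mod_cast Nat.lt_succ_iff.mp j.2
    have hj0 : (0 : ℝ) ≤ ((j : ℕ) : ℝ) := by positivity
    simp only [pieceSet, pieceV]
    rw [rect_volume _ _ _ _ (by linarith) (by nlinarith)]
    congr 1
    ring
  · have hj0 : (0 : ℝ) ≤ ((j : ℕ) : ℝ) := by positivity
    simp only [pieceSet, pieceV]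
    rw [rect_volume _ _ _ _ (by linarith) (by nlinarith [sq_nonneg (((j : ℕ) : ℝ) + 1)])]
    congr 1
    ring

theorem pieceV_nonneg (k : Idx) : 0 ≤ pieceV k := by
  rcases k with _ | j | j
  · simp only [pieceV]; norm_num
  · have hj : ((j : ℕ) : ℝ) ≤ 1804 := by exact_mod_cast Nat.lt_succ_iff.mp j.2
    have hj0 : (0 : ℝ) ≤ ((j : ℕ) : ℝ) := by positivity
    simp only [pieceV]
    nlinarith
  · simp only [pieceV]; positivity

end Vale.Agent.Lib.P243
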