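import Vale.Agent.Lib.P243T.Defs

/-!
# A cylinder from a linear map onto the plane
-/

namespace Vale.Agent.Lib.P243

open MeasureTheory
open scoped ENNReal

/-- The plane through the origin orthogonal to `u`. -/
noncomputable abbrev orthPlane (u : E3) : Submodule ℝ E3 := (Submodule.span ℝ {u})ᗮ

theorem ratio_mem_plane (u : E3) (x : E3) : x ∈ orthPlane u ↔ inner ℝ u x = 0 := by
  unfold orthPlane
  rw [Submodule.mem_orthogonal_singleton_iff_inner_right]

theorem exists_cylinder (φ : E3 →ₗ[ℝ] ℝ × ℝ) (w : E3) (hw : w ≠ 0) (hφw : φ w = 0)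
    (hker : ∀ x, φ x = 0 → x ∈ Submodule.span ℝ {w}) (hsurj : Function.Surjective φ)
    (S : Set (ℝ × ℝ)) (hS : MeasurableSet S) (hS' : volume S ≠ ∞)
    (K : Set E3) (hKc : IsCompact K) (a : ℝ) (ha : 0 < a)
    (hK : ENNReal.ofReal a ≤ volume (φ '' K)) :
    ∃ C : Cylinder E3, C.carrier = φ ⁻¹' S ∧ C.relArea K ≤ (volume S).toReal / a := by
  have hwn : ‖w‖ ≠ 0 := norm_ne_zero_iff.mpr hw
  set u : E3 := ‖w‖⁻¹ • w with hu
  have hun : ‖u‖ = 1 := by
    rw [hu, norm_smul, norm_inv, norm_norm, inv_mul_cancel₀ hwn]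
  have hφu : φ u = 0 := by rw [hu, map_smul, hφw, smul_zero]
  have hwu : w = ‖w‖ • u := by rw [hu, smul_smul, mul_inv_cancel₀ hwn, one_smul]
  have hker' : ∀ x, φ x = 0 → ∃ r : ℝ, x = r • u := by
    intro x hx
    obtain ⟨r, hr⟩ := Submodule.mem_span_singleton.mp (hker x hx)
    refine ⟨r * ‖w‖, ?_⟩
    rw [mul_smul, ← hwu, hr]
  -- the projection
  have hmemP : ∀ x : E3, x - inner ℝ u x • u ∈ orthPlane u := by
    intro x
    rw [ratio_mem_plane, inner_sub_right, inner_smul_right, real_inner_self_eq_norm_sq, hun]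
    ring
  let P : E3 → orthPlane u := fun x => ⟨x - inner ℝ u x • u, hmemP x⟩
  have hPx : ∀ x : E3, x = (P x : E3) + (inner ℝ u x : ℝ) • u := by
    intro x
    change x = x - inner ℝ u x • u + (inner ℝ u x : ℝ) • u
    abel
  have hφP : ∀ x : E3, φ (P x : E3) = φ x := by
    intro x
    conv_rhs => rw [hPx x]
    rw [map_add, map_smul, hφu, smul_zero, add_zero]
  -- the restriction of φ to the plane
  set ψ : orthPlane u →ₗ[ℝ] ℝ × ℝ := φ.comp (orthPlane u).subtype with hψ
  have hψa : ∀ x : orthPlane u, ψ x = φ (x : E3) := fun x => rfl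
  have hinj : Function.Injective ψ := by
    rw [← LinearMap.ker_eq_bot, LinearMap.ker_eq_bot']
    intro x hx
    rw [hψa] at hx
    obtain ⟨r, hr⟩ := hker' _ hx
    have h2 : inner ℝ u (x : E3) = 0 := (ratio_mem_plane u _).mp x.2
    rw [hr, inner_smul_right, real_inner_self_eq_norm_sq, hun] at h2
    have h3 : r = 0 := by linarith
    apply Subtype.ext
    rw [hr, h3, zero_smul]
    rfl
  have hsurj' : Function.Surjective ψ := by
    intro y
    obtain ⟨x, hx⟩ := hsurj y
    exact ⟨P x, by rw [hψa, hφP, hx]⟩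
  let e : orthPlane u ≃ₗ[ℝ] ℝ × ℝ := LinearEquiv.ofBijective ψ ⟨hinj, hsurj'⟩
  let eL : orthPlane u ≃L[ℝ] ℝ × ℝ := e.toContinuousLinearEquiv
  have heL : ∀ x : orthPlane u, eL x = φ (x : E3) := fun x => rfl
  have hfin : Module.finrank ℝ (orthPlane u) = 2 := by
    rw [LinearEquiv.finrank_eq e]
    simp
  let ν : Measure (orthPlane u) := Measure.euclideanHausdorffMeasure 2
  have hν : ν.IsAddHaarMeasure := by
    have h := isAddHaarMeasure_euclideanHausdorffMeasure (E := orthPlane u)
    rw [hfin] at h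
    exact h
  let M : orthPlane u ≃ᵐ ℝ × ℝ := eL.toHomeomorph.toMeasurableEquiv
  have hmap : ν.map eL =
      (Measure.addHaarScalarFactor (ν.map eL) volume) • (volume : Measure (ℝ × ℝ)) :=
    Measure.isAddLeftInvariant_eq_smul _ _
  set c := Measure.addHaarScalarFactor (ν.map eL) (volume : Measure (ℝ × ℝ)) with hc
  have hcpos : 0 < c := Measure.addHaarScalarFactor_pos_of_isAddHaarMeasure _ _
  have hval : ∀ B : Set (orthPlane u),
      Measure.euclideanHausdorffMeasure 2 (Subtype.val '' B : Set E3) = ν B :=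
    fun B => Isometry.euclideanHausdorffMeasure_image isometry_subtype_coe B
  have hmeas : ∀ A : Set (ℝ × ℝ),
      Measure.euclideanHausdorffMeasure 2 (Subtype.val '' (eL ⁻¹' A) : Set E3) = c * volume A := by
    intro A
    have h1 : ν.map M A = ν (M ⁻¹' A) := M.map_apply A
    have h2 : ν.map M = ν.map eL := rfl
    rw [h2, hmap] at h1
    have h3 : M ⁻¹' A = eL ⁻¹' A := rfl
    rw [h3] at h1
    rw [hval, ← h1, Measure.smul_apply, ENNReal.smul_def, smul_eq_mul]
  have hcoe : (c : ℝ≥0∞) ≠ ∞ := ENNReal.coe_ne_top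
  have hclosed : IsClosed ((orthPlane u : Submodule ℝ E3) : Set E3) :=
    Submodule.closed_of_finiteDimensional _
  refine ⟨⟨u, hun, Subtype.val '' (eL ⁻¹' S), ?_, ?_, ?_⟩, ?_, ?_⟩
  · rintro _ ⟨x, _, rfl⟩
    exact (ratio_mem_plane u _).mp x.2
  · exact (MeasurableEmbedding.subtype_coe hclosed.measurableSet).measurableSet_image.mpr
      (eL.continuous.measurable hS)
  · rw [hmeas]
    exact ENNReal.mul_ne_top hcoe hS'
  · ext x
    simp only [Cylinder.carrier, Set.mem_preimage]
    constructor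
    · rintro ⟨_, ⟨b, hb, rfl⟩, r, rfl⟩
      rw [map_add, map_smul, hφu, smul_zero, add_zero, ← heL]
      exact hb
    · intro hx
      refine ⟨P x, ⟨P x, ?_, rfl⟩, inner ℝ u x, hPx x⟩
      rw [Set.mem_preimage, heL, hφP]
      exact hx
  · have himg : shadow u K = Subtype.val '' (eL ⁻¹' (φ '' K)) := by
      ext x
      constructor
      · rintro ⟨k, hk, rfl⟩
        refine ⟨P k, ⟨k, hk, ?_⟩, rfl⟩
        rw [heL]
        exact (hφP k).symm
      · rintro ⟨y, ⟨k, hk, hky⟩, rfl⟩
        refine ⟨k, hk, ?_⟩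
        have : P k = y := by
          apply eL.injective
          rw [heL, hφP, hky]
        rw [← this]
    change area (Subtype.val '' (eL ⁻¹' S) : Set E3) / area (shadow u K) ≤ _
    have e1 : area (Subtype.val '' (eL ⁻¹' S) : Set E3) =
        (c : ℝ≥0∞).toReal * (volume S).toReal := by
      rw [area, hmeas, ENNReal.toReal_mul]
    have e2 : area (shadow u K) = (c : ℝ≥0∞).toReal * (volume (φ '' K)).toReal := by
      rw [himg, area, hmeas, ENNReal.toReal_mul]
    rw [e1, e2]
    have hc' : ((c : ℝ≥0∞)).toReal ≠ 0 := by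
      simp [hcpos.ne']
    rw [mul_div_mul_left _ _ hc']
    have hKt : volume (φ '' K) ≠ ∞ := by
      have : IsCompact (φ '' K) := hKc.image (LinearMap.continuous_of_finiteDimensional φ)
      exact this.measure_lt_top.ne
    have hle : a ≤ (volume (φ '' K)).toReal := by
      rw [← ENNReal.ofReal_le_iff_le_toReal hKt]
      exact hK
    exact div_le_div_of_nonneg_left ENNReal.toReal_nonneg ha hle

end Vale.Agent.Lib.P243
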