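import Vale.Agent.Lib.P243T.Maps

/-!
# Lower bounds for the areas of the shadows of the tetrahedron
-/

namespace Vale.Agent.Lib.P243

open MeasureTheory
open scoped ENNReal

theorem shadow_int_abs : (∫ y in (-2 : ℝ)..2, (1 - (|y| - 1))) = 4 := by
  have hc : Continuous fun y : ℝ => 1 - (|y| - 1) := by fun_prop
  have h0 : (∫ y in (-2 : ℝ)..0, (1 - (|y| - 1))) = ∫ y in (-2 : ℝ)..0, (2 + y) := by
    apply intervalIntegral.integral_congr
    intro y hy
    rw [Set.uIcc_of_le (by norm_num)] at hy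
    simp only
    rw [abs_of_nonpos hy.2]
    ring
  have h1 : (∫ y in (0 : ℝ)..2, (1 - (|y| - 1))) = ∫ y in (0 : ℝ)..2, (2 - y) := by
    apply intervalIntegral.integral_congr
    intro y hy
    rw [Set.uIcc_of_le (by norm_num)] at hy
    simp only
    rw [abs_of_nonneg hy.1]
    ring
  rw [← intervalIntegral.integral_add_adjacent_intervals (b := 0)
    (hc.intervalIntegrable _ _) (hc.intervalIntegrable _ _), h0, h1]
  rw [intervalIntegral.integral_add (by simp) (by simp),
    intervalIntegral.integral_sub (by simp) (by simp)]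
  simp only [intervalIntegral.integral_const, integral_id, smul_eq_mul]
  norm_num

theorem shadow_abs_region : volume (region (-2) 2 (fun y => |y| - 1) (fun _ => 1)) =
    ENNReal.ofReal 4 := by
  rw [region_volume (-2) 2 (by norm_num) _ _ (by fun_prop) (by fun_prop), shadow_int_abs]
  intro y h1 h2
  have : |y| ≤ 2 := abs_le.mpr ⟨h1, h2⟩
  linarith

theorem shadow_A : ENNReal.ofReal 4 ≤ volume (sh 0 1 0 0 '' Tet) := by
  rw [← shadow_abs_region]
  apply measure_mono
  rintro ⟨y, t⟩ h
  rw [region_mem] at h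
  obtain ⟨⟨h1, h2⟩, h3, h4⟩ := h
  refine ⟨!₂[0, y, t], ⟨?_, ?_⟩, ?_⟩
  · simp; linarith
  · simp; linarith
  · rw [sh_apply]; simp

theorem shadow_Y (k : ℝ) : ENNReal.ofReal 4 ≤ volume (sh 1 0 0 k '' Tet) := by
  have hv : volume (region (-2) 2 (fun _ => (-1 : ℝ)) (fun y => 1 - |y|)) = ENNReal.ofReal 4 := by
    rw [region_volume (-2) 2 (by norm_num) _ _ (by fun_prop) (by fun_prop)]
    · congr 1
      rw [← shadow_int_abs]
      apply intervalIntegral.integral_congr
      intro y _
      simp only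
      ring
    · intro y h1 h2
      have : |y| ≤ 2 := abs_le.mpr ⟨h1, h2⟩
      linarith
  rw [← hv]
  apply measure_mono
  rintro ⟨y, t⟩ h
  rw [region_mem] at h
  obtain ⟨⟨h1, h2⟩, h3, h4⟩ := h
  refine ⟨!₂[y, 0, t], ⟨?_, ?_⟩, ?_⟩
  · simp; linarith
  · simp; linarith
  · rw [sh_apply]; simp

theorem shadow_P (k : ℝ) (hk0 : 0 ≤ k) (hk : k ≤ 1 / 4) :
    ENNReal.ofReal 8 ≤ volume (sh 1 (-1) k k '' Tet) := by
  have hv : volume (region (-2) 2 (fun d => -(1 - k * d)) (fun d => 1 - k * d)) =
      ENNReal.ofReal 8 := by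
    rw [region_volume (-2) 2 (by norm_num) _ _ (by fun_prop) (by fun_prop)]
    · congr 1
      have : (fun y : ℝ => 1 - k * y - -(1 - k * y)) = fun y : ℝ => 2 - (2 * k) * y := by
        ext y; ring
      have g1 : IntervalIntegrable (fun _ : ℝ => (2 : ℝ)) volume (-2) 2 := by simp
      have g2 : IntervalIntegrable (fun y : ℝ => (2 * k) * y) volume (-2) 2 :=
        Continuous.intervalIntegrable (by fun_prop) _ _
      rw [this, intervalIntegral.integral_sub g1 g2, intervalIntegral.integral_const_mul]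
      simp only [intervalIntegral.integral_const, integral_id, smul_eq_mul]
      ring
    · intro y h1 h2
      nlinarith
  rw [← hv]
  apply measure_mono
  rintro ⟨d, s⟩ h
  rw [region_mem] at h
  obtain ⟨⟨h1, h2⟩, h3, h4⟩ := h
  have hpos : 0 < 1 - k * d := by nlinarith
  set t : ℝ := s / (1 - k * d) with ht
  have hs : s = t * (1 - k * d) := by rw [ht]; field_simp
  have t1 : -1 ≤ t := by rw [ht, le_div_iff₀ hpos]; linarith
  have t2 : t ≤ 1 := by rw [ht, div_le_iff₀ hpos]; linarith
  refine ⟨!₂[d * (1 - t) / 2, - (d * (1 + t)) / 2, t], ⟨?_, ?_⟩, ?_⟩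
  · simp only [Matrix.cons_val_zero, Matrix.cons_val]
    rw [abs_le]
    constructor <;> nlinarith
  · simp only [Matrix.cons_val_one, Matrix.cons_val]
    rw [abs_le]
    constructor <;> nlinarith
  · rw [sh_apply]
    ext
    · simp; ring
    · simp; rw [hs]; ring

end Vale.Agent.Lib.P243
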